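import Vale.Agent.P307.Bdl.B1

set_option linter.unusedSectionVars false

universe u v w

open Cardinal Set

namespace Vale.Agent.P307.R2.H606

open Vale.Agent.P307

section select

variable {ρ : Cardinal.{u}}

theorem exists_select (hρ : ℵ₀ ≤ ρ) (R : SuccTy ρ → SuccTy ρ → Prop)
    (hR : ∀ x, ∃ i, x < i ∧ R x i) :
    ∃ g k : SuccTy ρ → SuccTy ρ, StrictMono g ∧ (∀ j, k j < g j) ∧ (∀ j, R (k j) (g j)) ∧
      ∀ i j, i < j → g i < k j := by
  classical
  choose nx hnx1 hnx2 using hR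
  have hub : ∀ (j : SuccTy ρ) (f : Set.Iio j → SuccTy ρ), ∃ x, ∀ i, f i < x := by
    intro j f
    obtain ⟨x, hx⟩ := exists_gt_of_small hρ (Set.range f) (mk_range_le.trans (mk_Iio_succTy j))
    exact ⟨x, fun i => hx _ ⟨i, rfl⟩⟩
  choose ub hub using hub
  let g : SuccTy ρ → SuccTy ρ := WellFounded.fix (r := (· < ·)) wellFounded_lt
    (fun j rec => nx (ub j (fun i => rec i.1 i.2)))
  have hg : ∀ j, g j = nx (ub j (fun i => g i.1)) := fun j => by
    exact WellFounded.fix_eq _ _ _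
  refine ⟨g, fun j => ub j (fun i => g i.1), ?_, ?_, ?_, ?_⟩
  · intro i j hij
    have h1 := hub j (fun i => g i.1) ⟨i, hij⟩
    have h2 := hnx1 (ub j (fun i => g i.1))
    rw [← hg j] at h2
    exact lt_trans h1 h2
  · intro j
    have h2 := hnx1 (ub j (fun i => g i.1))
    rw [← hg j] at h2
    exact h2
  · intro j
    have h2 := hnx2 (ub j (fun i => g i.1))
    rw [← hg j] at h2
    exact h2
  · intro i j hij
    exact hub j (fun i => g i.1) ⟨i, hij⟩

theorem exists_gt_succTy (hρ : ℵ₀ ≤ ρ) (x : SuccTy ρ) : ∃ i, x < i := by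
  obtain ⟨y, hy⟩ := exists_gt_of_small hρ ({x} : Set (SuccTy ρ))
    (by rw [mk_singleton]; exact one_le_aleph0.trans hρ)
  exact ⟨y, hy x rfl⟩

theorem exists_mono_subseq (hρ : ℵ₀ ≤ ρ) {I : Type u} [LinearOrder I] [WellFoundedLT I]
    (x : SuccTy ρ → I) : ∃ g : SuccTy ρ → SuccTy ρ, StrictMono g ∧ Monotone (fun j => x (g j)) := by
  obtain ⟨g, k, hg, hkg, hR, hgk⟩ := exists_select hρ (fun a i => ∀ l, a < l → x i ≤ x l) (by
    intro a
    obtain ⟨b, hb⟩ := exists_gt_succTy hρ a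
    let S : Set I := x '' {l | a < l}
    have hS : S.Nonempty := ⟨x b, b, hb, rfl⟩
    obtain ⟨i, hi, hix⟩ := wellFounded_lt.min_mem S hS
    refine ⟨i, hi, fun l hl => ?_⟩
    rw [hix]
    exact not_lt.1 (wellFounded_lt.not_lt_min S ⟨l, hl, rfl⟩))
  refine ⟨g, hg, ?_⟩
  intro i j hij
  rcases hij.eq_or_lt with rfl | hij
  · exact le_rfl
  · exact hR i (g j) ((hkg i).trans (hg hij))

theorem exists_subseq_mem (hρ : ℵ₀ ≤ ρ) (S : Set (SuccTy ρ)) (hS : ∀ x, ∃ i, x < i ∧ i ∈ S) :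
    ∃ g : SuccTy ρ → SuccTy ρ, StrictMono g ∧ ∀ j, g j ∈ S := by
  obtain ⟨g, k, hg, -, hR, -⟩ := exists_select hρ (fun _ i => i ∈ S) hS
  exact ⟨g, hg, hR⟩

theorem exists_mono_subseq_finset (hρ : ℵ₀ ≤ ρ) {I Q : Type u} [LinearOrder I] [WellFoundedLT I]
    (w : SuccTy ρ → Q → I) (s : Finset Q) : ∃ g : SuccTy ρ → SuccTy ρ, StrictMono g ∧
      ∀ q ∈ s, Monotone (fun j => w (g j) q) := by
  classical
  induction s using Finset.induction_on with
  | empty => exact ⟨id, strictMono_id, by simp⟩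
  | insert a s ha ih =>
    obtain ⟨g, hg, hs⟩ := ih
    obtain ⟨h, hh, hm⟩ := exists_mono_subseq hρ (fun j => w (g j) a)
    refine ⟨g ∘ h, hg.comp hh, fun q hq => ?_⟩
    rcases Finset.mem_insert.1 hq with rfl | hq
    · exact hm
    · exact (hs q hq).comp hh.monotone

end select

section conv

variable {ρ : Cardinal.{u}}

theorem conv_aux (hρ : ℵ₀ ≤ ρ) {I Q : Type u} [LinearOrder I]
    [WellFoundedLT I] [Finite Q] (w : SuccTy ρ → Q → I) :
    ∃ g : SuccTy ρ → SuccTy ρ, StrictMono g ∧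
      (∀ q, ∀ y : I, ∃ j₀, ∀ j, j₀ ≤ j → (w (g j) q ≤ y ↔ w (g j₀) q ≤ y) ∧
        (y ≤ w (g j) q ↔ y ≤ w (g j₀) q)) ∧
      ∀ j j' q q', w (g j) q ≤ w (g j) q' ↔ w (g j') q ≤ w (g j') q' := by
  classical
  cases nonempty_fintype Q
  obtain ⟨g, hg, hm⟩ := exists_mono_subseq_finset hρ w Finset.univ
  obtain ⟨P, hP⟩ := exists_unbounded_color hρ (T := Set (Q × Q))
    ((mk_lt_aleph0_iff.2 inferInstance).le.trans hρ)
    (fun j => {p : Q × Q | w (g j) p.1 ≤ w (g j) p.2})
  obtain ⟨h, hh, hhP⟩ := exists_subseq_mem hρ _ hP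
  refine ⟨g ∘ h, hg.comp hh, ?_, ?_⟩
  · intro q y
    have hmono : Monotone (fun j => w (g (h j)) q) := (hm q (Finset.mem_univ _)).comp hh.monotone
    by_cases h1 : ∃ j, ¬ w (g (h j)) q ≤ y
    · obtain ⟨j₁, hj₁⟩ := h1
      by_cases h2 : ∃ j, y ≤ w (g (h j)) q
      · obtain ⟨j₂, hj₂⟩ := h2
        refine ⟨max j₁ j₂, fun j hj => ?_⟩
        have a1 : ∀ j, max j₁ j₂ ≤ j → ¬ w (g (h j)) q ≤ y := fun j hj hc =>
          hj₁ ((hmono ((le_max_left _ _).trans hj)).trans hc)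
        have a2 : ∀ j, max j₁ j₂ ≤ j → y ≤ w (g (h j)) q := fun j hj =>
          hj₂.trans (hmono ((le_max_right _ _).trans hj))
        exact ⟨iff_of_false (a1 j hj) (a1 _ le_rfl), iff_of_true (a2 j hj) (a2 _ le_rfl)⟩
      · exact absurd ⟨j₁, (not_le.1 hj₁).le⟩ h2
    · push Not at h1
      by_cases h2 : ∃ j, y ≤ w (g (h j)) q
      · obtain ⟨j₂, hj₂⟩ := h2
        refine ⟨j₂, fun j hj => ?_⟩
        exact ⟨iff_of_true (h1 j) (h1 _), iff_of_true (hj₂.trans (hmono hj)) hj₂⟩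
      · push Not at h2
        exact ⟨g (h (Classical.choice ⟨h (Classical.choice (by
          obtain ⟨x, -⟩ := exists_gt_of_small hρ (∅ : Set (SuccTy ρ)) (by simp)
          exact ⟨x⟩))⟩)), fun j _ => ⟨iff_of_true (h1 j) (h1 _),
            iff_of_false (not_le.2 (h2 j)) (not_le.2 (h2 _))⟩⟩
  · intro j j' q q'
    have h1 := hhP j
    have h2 := hhP j'
    have h3 : (q, q') ∈ {p : Q × Q | w (g (h j)) p.1 ≤ w (g (h j)) p.2} ↔
        (q, q') ∈ {p : Q × Q | w (g (h j')) p.1 ≤ w (g (h j')) p.2} := by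
      rw [show {p : Q × Q | w (g (h j)) p.1 ≤ w (g (h j)) p.2} = P from h1,
        show {p : Q × Q | w (g (h j')) p.1 ≤ w (g (h j')) p.2} = P from h2]
    exact h3

end conv

section lim

variable {ρ μ : Cardinal.{u}}

theorem limPat_aux (hμ : ℵ₀ ≤ μ) (hρ : ℵ₀ ≤ ρ) {J Q : Type u} [LinearOrder J]
    [Finite Q] (hJ : Nice μ J) {Y : Set J} (hY : #Y ≤ μ) {w : SuccTy ρ → Q → J}
    (hc : ∀ q, ∀ y ∈ Y, ∃ j₀, ∀ j, j₀ ≤ j → (w j q ≤ y ↔ w j₀ q ≤ y) ∧ (y ≤ w j q ↔ y ≤ w j₀ q))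
    (hp : ∀ j j' q q', w j q ≤ w j q' ↔ w j' q ≤ w j' q') :
    ∃ v : Q → J,
      (∀ q, ∀ y ∈ Y, ∃ j₀, ∀ j, j₀ ≤ j → (w j q ≤ y ↔ v q ≤ y) ∧ (y ≤ w j q ↔ y ≤ v q)) ∧
      ∀ j q q', w j q ≤ w j q' ↔ v q ≤ v q' := by
  classical
  cases nonempty_fintype Q
  obtain ⟨o, -⟩ := exists_gt_of_small hρ (∅ : Set (SuccTy ρ)) (by simp)
  have key : ∀ s : Finset Q, ∃ v : Q → J,
      (∀ q ∈ s, ∀ y ∈ Y, ∃ j₀, ∀ j, j₀ ≤ j → (w j q ≤ y ↔ v q ≤ y) ∧ (y ≤ w j q ↔ y ≤ v q)) ∧
      ∀ q ∈ s, ∀ q' ∈ s, ∀ j, (w j q ≤ w j q' ↔ v q ≤ v q') := by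
    intro s
    induction s using Finset.induction_on with
    | empty => exact ⟨w o, by simp, by simp⟩
    | insert a s ha ih =>
      obtain ⟨v, hv, hvp⟩ := ih
      -- it suffices to find the position of the new point
      suffices H : ∃ x : J, (∀ y ∈ Y, ∃ j₀, ∀ j, j₀ ≤ j → (w j a ≤ y ↔ x ≤ y) ∧ (y ≤ w j a ↔ y ≤ x)) ∧
          ∀ q ∈ s, ∀ j, (w j q ≤ w j a ↔ v q ≤ x) ∧ (w j a ≤ w j q ↔ x ≤ v q) by
        obtain ⟨x, hx1, hx2⟩ := H
        have hne : ∀ q ∈ s, q ≠ a := fun q hq h => ha (by rw [← h]; exact hq)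
        refine ⟨Function.update v a x, ?_, ?_⟩
        · intro q hq y hy
          rcases Finset.mem_insert.1 hq with hqa | hq
          · rw [hqa, Function.update_self]
            exact hx1 y hy
          · rw [Function.update_of_ne (hne q hq)]
            exact hv q hq y hy
        · intro q hq q' hq' j
          rcases Finset.mem_insert.1 hq with hqa | hq
          · rcases Finset.mem_insert.1 hq' with hqa' | hq'
            · rw [hqa, hqa']
              simp
            · rw [hqa, Function.update_self, Function.update_of_ne (hne q' hq')]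
              exact (hx2 q' hq' j).2
          · rcases Finset.mem_insert.1 hq' with hqa' | hq'
            · rw [hqa', Function.update_self, Function.update_of_ne (hne q hq)]
              exact (hx2 q hq j).1
            · rw [Function.update_of_ne (hne q hq), Function.update_of_ne (hne q' hq')]
              exact hvp q hq q' hq' j
      by_cases h1 : ∃ y ∈ Y, ∃ j₀, ∀ j, j₀ ≤ j → w j a = y
      · obtain ⟨y₀, hy₀, j₀, hj₀⟩ := h1
        refine ⟨y₀, fun y hy => ⟨j₀, fun j hj => ?_⟩, fun q hq j => ?_⟩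
        · rw [hj₀ j hj]
          exact ⟨Iff.rfl, Iff.rfl⟩
        · obtain ⟨j₁, hj₁⟩ := hv q hq y₀ hy₀
          have h2 := hj₁ (max j₀ j₁) (le_max_right _ _)
          have h3 := hj₀ (max j₀ j₁) (le_max_left _ _)
          constructor
          · rw [hp j (max j₀ j₁), h3]
            exact h2.1
          · rw [hp j (max j₀ j₁), h3]
            exact h2.2
      · by_cases h2 : ∃ q ∈ s, w o q = w o a
        · obtain ⟨q₀, hq₀, hqa⟩ := h2
          have heq : ∀ j, w j q₀ = w j a := fun j =>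
            le_antisymm ((hp j o _ _).2 hqa.le) ((hp j o _ _).2 hqa.ge)
          refine ⟨v q₀, fun y hy => ?_, fun q hq j => ?_⟩
          · obtain ⟨j₁, hj₁⟩ := hv q₀ hq₀ y hy
            refine ⟨j₁, fun j hj => ?_⟩
            rw [← heq j]
            exact hj₁ j hj
          · rw [← heq j]
            exact ⟨hvp q hq q₀ hq₀ j, hvp q₀ hq₀ q hq j⟩
        · push Not at h1 h2
          -- dichotomy over `Y`
          have hd : ∀ y ∈ Y, (∃ j₀, ∀ j, j₀ ≤ j → w j a < y) ∨ (∃ j₀, ∀ j, j₀ ≤ j → y < w j a) := by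
            intro y hy
            obtain ⟨j₀, hj₀⟩ := hc a y hy
            rcases lt_trichotomy (w j₀ a) y with h | h | h
            · left
              refine ⟨j₀, fun j hj => ?_⟩
              exact not_le.1 (fun h' => absurd ((hj₀ j hj).2.1 h') (not_le.2 h))
            · exfalso
              obtain ⟨j, hj, hne⟩ := h1 y hy j₀
              exact hne (le_antisymm ((hj₀ j hj).1.2 h.le) ((hj₀ j hj).2.2 h.ge))
            · right
              refine ⟨j₀, fun j hj => ?_⟩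
              exact not_le.1 (fun h' => absurd ((hj₀ j hj).1.1 h') (not_le.2 h))
          have hd2 : ∀ q ∈ s, (∀ j, w j a < w j q) ∨ (∀ j, w j q < w j a) := by
            intro q hq
            rcases lt_trichotomy (w o a) (w o q) with h | h | h
            · left
              exact fun j => not_le.1 (fun h' => absurd ((hp j o _ _).1 h') (not_le.2 h))
            · exact absurd h.symm (h2 q hq)
            · right
              exact fun j => not_le.1 (fun h' => absurd ((hp j o _ _).1 h') (not_le.2 h))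
          let A : Set J := {y | y ∈ Y ∧ ∃ j₀, ∀ j, j₀ ≤ j → y < w j a} ∪
            v '' {q | q ∈ s ∧ ∀ j, w j q < w j a}
          let B : Set J := {y | y ∈ Y ∧ ∃ j₀, ∀ j, j₀ ≤ j → w j a < y} ∪
            v '' {q | q ∈ s ∧ ∀ j, w j a < w j q}
          have hfin : ∀ T : Set Q, #(v '' T) ≤ μ := fun T =>
            (mk_image_le.trans ((mk_set_le T).trans
              (mk_lt_aleph0_iff.2 inferInstance).le)).trans hμ
          have hA : #A ≤ μ := (mk_union_le _ _).trans ((add_le_add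
            ((mk_le_mk_of_subset (fun y hy => hy.1)).trans hY) (hfin _)).trans_eq (add_eq_self hμ))
          have hB : #B ≤ μ := (mk_union_le _ _).trans ((add_le_add
            ((mk_le_mk_of_subset (fun y hy => hy.1)).trans hY) (hfin _)).trans_eq (add_eq_self hμ))
          obtain ⟨x, hxA, hxB⟩ := hJ A B hA hB (by
            rintro y (⟨hy, j₀, hj₀⟩ | ⟨q, ⟨hq, hqa⟩, rfl⟩) z (⟨hz, j₁, hj₁⟩ | ⟨q', ⟨hq', hqa'⟩, rfl⟩)
            · exact (hj₀ (max j₀ j₁) (le_max_left _ _)).trans (hj₁ (max j₀ j₁) (le_max_right _ _))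
            · obtain ⟨j₂, hj₂⟩ := hv q' hq' y hy
              refine not_le.1 (fun h => ?_)
              have h3 := (hj₂ (max j₀ j₂) (le_max_right _ _)).1.2 h
              exact absurd ((hj₀ (max j₀ j₂) (le_max_left _ _)).trans (hqa' _)) (not_lt.2 h3)
            · obtain ⟨j₂, hj₂⟩ := hv q hq z hz
              refine not_le.1 (fun h => ?_)
              have h3 := (hj₂ (max j₁ j₂) (le_max_right _ _)).2.2 h
              exact absurd ((hqa _).trans (hj₁ (max j₁ j₂) (le_max_left _ _))) (not_lt.2 h3)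
            · refine not_le.1 (fun h => ?_)
              exact absurd ((hqa o).trans (hqa' o)) (not_lt.2 ((hvp q' hq' q hq o).2 h)))
          refine ⟨x, fun y hy => ?_, fun q hq j => ?_⟩
          · rcases hd y hy with ⟨j₀, hj₀⟩ | ⟨j₀, hj₀⟩
            · refine ⟨j₀, fun j hj => ?_⟩
              have h3 : x < y := hxB y (Or.inl ⟨hy, j₀, hj₀⟩)
              exact ⟨iff_of_true (hj₀ j hj).le h3.le,
                iff_of_false (not_le.2 (hj₀ j hj)) (not_le.2 h3)⟩
            · refine ⟨j₀, fun j hj => ?_⟩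
              have h3 : y < x := hxA y (Or.inl ⟨hy, j₀, hj₀⟩)
              exact ⟨iff_of_false (not_le.2 (hj₀ j hj)) (not_le.2 h3),
                iff_of_true (hj₀ j hj).le h3.le⟩
          · rcases hd2 q hq with h | h
            · have h3 : x < v q := hxB _ (Or.inr ⟨q, ⟨hq, h⟩, rfl⟩)
              exact ⟨iff_of_false (not_le.2 (h j)) (not_le.2 h3), iff_of_true (h j).le h3.le⟩
            · have h3 : v q < x := hxA _ (Or.inr ⟨q, ⟨hq, h⟩, rfl⟩)
              exact ⟨iff_of_true (h j).le h3.le, iff_of_false (not_le.2 (h j)) (not_le.2 h3)⟩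
  obtain ⟨v, hv, hvp⟩ := key Finset.univ
  exact ⟨v, fun q y hy => hv q (Finset.mem_univ _) y hy,
    fun j q q' => hvp q (Finset.mem_univ _) q' (Finset.mem_univ _) j⟩

end lim

end Vale.Agent.P307.R2.H606
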